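import Vale.Agent.P050.Lev.KSid

/-!
Reduction of the two-sided Sidorenko inequality to kernels all of whose row means and column means
are equal to one (tensor powers and joint types).
-/

namespace Vale.Agent.P050.H987

open Finset

/-- the weighted homomorphism density of the bipartite graph `E` in the kernel `W` -/
def dens {V U : Type} [Fintype V] [DecidableEq V] [Fintype U] (E : Finset (V × V))
    (side : V → Bool) (m : Bool → U → ℝ) (W : U → U → ℝ) : ℝ :=
  ∑ z : V → U, (∏ v, m (side v) (z v)) * ∏ e ∈ E, W (z e.1) (z e.2)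

/-- The Sidorenko inequality for all kernels with constant row means and column means. -/
def KReg {V : Type} [Fintype V] [DecidableEq V] (E : Finset (V × V)) (side : V → Bool) : Prop :=
  ∀ (U : Type) [Fintype U] (m : Bool → U → ℝ) (W : U → U → ℝ), (∀ b x, 0 ≤ m b x) →
    (∀ b, ∑ x, m b x = 1) → (∀ x y, 0 ≤ W x y) → (∀ x, ∑ y, m true y * W x y = 1) →
      (∀ y, ∑ x, m false x * W x y = 1) → 1 ≤ dens E side m W

/-- The Sidorenko inequality for those kernels with constant row means and column means which take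
only one nonzero value, and whose weights are images of the uniform distribution on one set. -/
def KRegU {V : Type} [Fintype V] [DecidableEq V] (E : Finset (V × V)) (side : V → Bool) : Prop :=
  ∀ (U : Type) [Fintype U] [DecidableEq U] (m : Bool → U → ℝ) (W : U → U → ℝ),
    (∀ b x, 0 ≤ m b x) →
    (∀ b, ∑ x, m b x = 1) → (∀ x y, 0 ≤ W x y) → (∀ x, ∑ y, m true y * W x y = 1) →
      (∀ y, ∑ x, m false x * W x y = 1) →
      ∀ (P : Type) [Fintype P] [Nonempty P] (f : Bool → P → U) (c : ℝ), 0 < c →
        (∀ b x, m b x = ((univ.filter fun p => f b p = x).card : ℝ) / Fintype.card P) →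
        (∀ p q, W (f false p) (f true q) = 0 ∨ W (f false p) (f true q) = c) →
        1 ≤ dens E side m W

/-- The Sidorenko inequality, on both sides the same number of vertices with the uniform weights,
for all `0/1` valued kernels with constant row sums and column sums. -/
def KUni {V : Type} [Fintype V] [DecidableEq V] (E : Finset (V × V)) : Prop :=
  ∀ (U : Type) [Fintype U] [Nonempty U] (W : U → U → ℝ) (d : ℝ), 0 < d →
    (∀ x y, W x y = 0 ∨ W x y = 1) → (∀ x, ∑ y, W x y = d) → (∀ y, ∑ x, W x y = d) →
      (d / Fintype.card U) ^ E.card * (Fintype.card U : ℝ) ^ Fintype.card V ≤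
        ∑ z : V → U, ∏ e ∈ E, W (z e.1) (z e.2)

section Tensor

variable {V U : Type} [Fintype V] [DecidableEq V] [Fintype U]

/-- tensor powers -/
lemma dens_tensor (E : Finset (V × V)) (side : V → Bool) (m : Bool → U → ℝ) (W : U → U → ℝ)
    (N : ℕ) :
    dens E side (fun b (x : Fin N → U) => ∏ i, m b (x i))
      (fun (x y : Fin N → U) => ∏ i, W (x i) (y i)) = dens E side m W ^ N := by
  classical
  unfold dens
  rw [Fintype.sum_pow]
  refine (Fintype.sum_equiv (Equiv.piComm (fun (_ : Fin N) (_ : V) => U)) _ _ ?_).symm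
  intro Z
  rw [Finset.prod_mul_distrib, Finset.prod_comm]
  congr 1
  rw [Finset.prod_comm]
  rfl

lemma mean_tensor (a b : U → ℝ) (W : U → U → ℝ) (N : ℕ) :
    ∑ x : Fin N → U, ∑ y : Fin N → U,
      (∏ i, a (x i)) * (∏ i, b (y i)) * ∏ i, W (x i) (y i) =
      (∑ x, ∑ y, a x * b y * W x y) ^ N := by
  classical
  have h : (∑ x, ∑ y, a x * b y * W x y) = ∑ q : U × U, a q.1 * b q.2 * W q.1 q.2 := by
    rw [Fintype.sum_prod_type]
  rw [h, Fintype.sum_pow, ← Fintype.sum_prod_type']
  refine (Fintype.sum_equiv (Equiv.arrowProdEquivProdArrow (Fin N) (fun _ => U) (fun _ => U)) _ _ ?_).symm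
  intro Z
  simp only [Finset.prod_mul_distrib]
  rfl

lemma sum_tensor (a : U → ℝ) (N : ℕ) (ha : ∑ x, a x = 1) :
    ∑ x : Fin N → U, ∏ i, a (x i) = 1 := by
  rw [← Fintype.sum_pow, ha, one_pow]

end Tensor

section Orbits

variable {U : Type} {N : ℕ}

/-- the orbit relation of pairs of words -/
def Orb (x0 y0 : Fin N → U) (x y : Fin N → U) : Prop :=
  ∃ s : Equiv.Perm (Fin N), x = x0 ∘ s ∧ y = y0 ∘ s

lemma orb_of_count [DecidableEq U] {x0 y0 x y : Fin N → U}
    (h : ∀ q : U × U, (univ.filter fun i => (x i, y i) = q).card =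
      (univ.filter fun i => (x0 i, y0 i) = q).card) : Orb x0 y0 x y := by
  classical
  have e : ∀ q : U × U, {i // (fun i => (x i, y i)) i = q} ≃ {i // (fun i => (x0 i, y0 i)) i = q} := by
    intro q
    refine Fintype.equivOfCardEq ?_
    rw [Fintype.card_subtype, Fintype.card_subtype]
    exact h q
  refine ⟨Equiv.ofFiberEquiv e, ?_, ?_⟩
  · funext i
    have := Equiv.ofFiberEquiv_map e i
    exact (congrArg Prod.fst this).symm
  · funext i
    have := Equiv.ofFiberEquiv_map e i
    exact (congrArg Prod.snd this).symm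

/-- the word `x` is a rearrangement of `x0` -/
def Rea (x0 x : Fin N → U) : Prop := ∃ s : Equiv.Perm (Fin N), x = x0 ∘ s

lemma Orb.left {x0 y0 x y : Fin N → U} (h : Orb x0 y0 x y) : Rea x0 x := by
  obtain ⟨s, h1, h2⟩ := h
  exact ⟨s, h1⟩

lemma Orb.right {x0 y0 x y : Fin N → U} (h : Orb x0 y0 x y) : Rea y0 y := by
  obtain ⟨s, h1, h2⟩ := h
  exact ⟨s, h2⟩

lemma orb_comp {x0 y0 x y : Fin N → U} (s : Equiv.Perm (Fin N)) :
    Orb x0 y0 (x ∘ s) (y ∘ s) ↔ Orb x0 y0 x y := by
  constructor
  · rintro ⟨t, h1, h2⟩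
    refine ⟨t * s⁻¹, ?_, ?_⟩
    · funext i
      have := congrFun h1 (s⁻¹ i)
      simpa using this
    · funext i
      have := congrFun h2 (s⁻¹ i)
      simpa using this
  · rintro ⟨t, h1, h2⟩
    refine ⟨t * s, ?_, ?_⟩
    · funext i
      simp [h1]
    · funext i
      simp [h2]

lemma orb_self (x0 y0 : Fin N → U) : Orb x0 y0 x0 y0 := ⟨1, rfl, rfl⟩

lemma prod_rea (a : U → ℝ) {x0 x : Fin N → U} (h : Rea x0 x) : ∏ i, a (x i) = ∏ i, a (x0 i) := by
  obtain ⟨s, rfl⟩ := h
  exact Equiv.prod_comp s fun i => a (x0 i)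

lemma prod_orb (W : U → U → ℝ) {x0 y0 x y : Fin N → U} (h : Orb x0 y0 x y) :
    ∏ i, W (x i) (y i) = ∏ i, W (x0 i) (y0 i) := by
  obtain ⟨s, rfl, rfl⟩ := h
  exact Equiv.prod_comp s fun i => W (x0 i) (y0 i)

open Classical in
lemma deg_left [Fintype U] {x0 y0 x : Fin N → U} (h : Rea x0 x) :
    (univ.filter fun y => Orb x0 y0 x y).card = (univ.filter fun y => Orb x0 y0 x0 y).card := by
  obtain ⟨s, rfl⟩ := h
  symm
  refine Finset.card_bij (fun y _ => y ∘ s) ?_ ?_ ?_
  · intro y hy
    simp only [mem_filter, mem_univ, true_and] at hy ⊢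
    exact (orb_comp s).2 hy
  · intro y _ y' _ hyy
    funext i
    have := congrFun hyy (s⁻¹ i)
    simpa using this
  · intro y hy
    simp only [mem_filter, mem_univ, true_and] at hy
    refine ⟨y ∘ ⇑s⁻¹, ?_, ?_⟩
    · simp only [mem_filter, mem_univ, true_and]
      rw [← orb_comp s]
      convert hy using 1
      funext i
      simp
    · funext i
      simp

open Classical in
lemma deg_right [Fintype U] {x0 y0 y : Fin N → U} (h : Rea y0 y) :
    (univ.filter fun x => Orb x0 y0 x y).card = (univ.filter fun x => Orb x0 y0 x y0).card := by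
  obtain ⟨s, rfl⟩ := h
  symm
  refine Finset.card_bij (fun y _ => y ∘ s) ?_ ?_ ?_
  · intro y hy
    simp only [mem_filter, mem_univ, true_and] at hy ⊢
    exact (orb_comp s).2 hy
  · intro y _ y' _ hyy
    funext i
    have := congrFun hyy (s⁻¹ i)
    simpa using this
  · intro y hy
    simp only [mem_filter, mem_univ, true_and] at hy
    refine ⟨y ∘ ⇑s⁻¹, ?_, ?_⟩
    · simp only [mem_filter, mem_univ, true_and]
      rw [← orb_comp s]
      convert hy using 1
      funext i
      simp
    · funext i
      simp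

end Orbits

section Core

variable {V U : Type} [Fintype V] [DecidableEq V] [Fintype U]

omit [DecidableEq V] in
lemma prod_side (side : V → Bool) (c : Bool → ℝ) :
    ∏ v, c (side v) = c true ^ (univ.filter fun v => side v = true).card *
      c false ^ (univ.filter fun v => side v = false).card := by
  rw [← Finset.prod_fiberwise univ side, Fintype.prod_bool]
  congr 1
  · rw [← Finset.prod_const]
    refine Finset.prod_congr rfl ?_
    intro v hv
    rw [(mem_filter.1 hv).2]
  · rw [← Finset.prod_const]
    refine Finset.prod_congr rfl ?_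
    intro v hv
    rw [(mem_filter.1 hv).2]

open Classical in
lemma mass_le (a : U → ℝ) (ha : ∀ x, 0 ≤ a x) (ha1 : ∑ x, a x = 1) {N : ℕ} (x0 : Fin N → U) :
    (∏ i, a (x0 i)) * ((univ.filter fun x => Rea x0 x).card : ℝ) ≤ 1 := by
  rw [← sum_tensor a N ha1, mul_comm, ← nsmul_eq_mul, ← Finset.sum_const]
  refine le_trans (le_of_eq ?_) (Finset.sum_le_sum_of_subset_of_nonneg
    (Finset.filter_subset (fun x => Rea x0 x) univ) ?_)
  · refine Finset.sum_congr rfl ?_
    intro x hx
    exact (prod_rea a (mem_filter.1 hx).2).symm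
  · intro x _ _
    exact Finset.prod_nonneg fun i _ => ha _

/-- images of sums over maps -/
lemma push [DecidableEq U] {P : Type} [Fintype P] (f : V → P → U) (F : (V → U) → ℝ) :
    ∑ p : V → P, F (fun v => f v (p v)) =
      ∑ z : V → U, (∏ v, ((univ.filter fun q => f v q = z v).card : ℝ)) * F z := by
  classical
  rw [← Finset.sum_fiberwise univ (fun (p : V → P) v => f v (p v))]
  refine Finset.sum_congr rfl ?_
  intro z _
  have h1 : (univ.filter fun p : V → P => (fun v => f v (p v)) = z) =
      Fintype.piFinset fun v => univ.filter fun q => f v q = z v := by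
    ext p
    simp only [mem_filter, mem_univ, true_and, Fintype.mem_piFinset]
    exact funext_iff
  have h2 : ∑ p ∈ univ.filter (fun p : V → P => (fun v => f v (p v)) = z),
      F (fun v => f v (p v)) = ∑ p ∈ univ.filter (fun p : V → P => (fun v => f v (p v)) = z),
      F z := by
    refine Finset.sum_congr rfl ?_
    intro p hp
    rw [(mem_filter.1 hp).2]
  rw [h2, Finset.sum_const, h1, Fintype.card_piFinset, nsmul_eq_mul, Nat.cast_prod]

lemma aux1 (P k g : ℝ) (hP : P ≠ 0) : k * g = P * (k / P * g) := by field_simp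

lemma aux2 (P k g : ℝ) (hP : P ≠ 0) : k / P * g * P = k * g := by field_simp

lemma kregu_of_kuni {E : Finset (V × V)} {side : V → Bool}
    (hE : ∀ e ∈ E, side e.1 = false ∧ side e.2 = true) (h : KUni E) : KRegU E side := by
  intro U _ _ m W hm hm1 hW hr hc P _ _ f c hc0 hmf hWf
  classical
  have hP : (0 : ℝ) < Fintype.card P := by exact_mod_cast Fintype.card_pos
  let W' : P → P → ℝ := fun p q => if W (f false p) (f true q) = 0 then 0 else 1
  have hWW : ∀ p q, W (f false p) (f true q) = c * W' p q := by
    intro p q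
    simp only [W']
    split_ifs with h0
    · rw [h0, mul_zero]
    · rw [mul_one]
      exact (hWf p q).resolve_left h0
  have hpush : ∀ (b : Bool) (g : U → ℝ), ∑ q, g (f b q) =
      Fintype.card P * ∑ y, m b y * g y := by
    intro b g
    rw [← Finset.sum_fiberwise univ (fun q => f b q), Finset.mul_sum]
    refine Finset.sum_congr rfl ?_
    intro y _
    have : ∑ q ∈ univ.filter (fun q => f b q = y), g (f b q) =
        ∑ q ∈ univ.filter (fun q => f b q = y), g y := by
      refine Finset.sum_congr rfl ?_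
      intro q hq
      rw [(mem_filter.1 hq).2]
    rw [this, Finset.sum_const, nsmul_eq_mul, hmf]
    exact aux1 _ _ _ hP.ne'
  have hr' : ∀ p, ∑ q, W' p q = Fintype.card P / c := by
    intro p
    have h1 : c * ∑ q, W' p q = Fintype.card P := by
      rw [Finset.mul_sum, ← Finset.sum_congr rfl fun q _ => hWW p q,
        hpush true fun y => W (f false p) y, hr, mul_one]
    rw [eq_div_iff hc0.ne', mul_comm]
    exact h1
  have hc' : ∀ q, ∑ p, W' p q = Fintype.card P / c := by
    intro q
    have h1 : c * ∑ p, W' p q = Fintype.card P := by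
      rw [Finset.mul_sum, ← Finset.sum_congr rfl fun p _ => hWW p q,
        hpush false fun x => W x (f true q), hc, mul_one]
    rw [eq_div_iff hc0.ne', mul_comm]
    exact h1
  have hmain := h P W' (Fintype.card P / c) (div_pos hP hc0)
    (fun p q => by simp only [W']; split_ifs <;> simp) hr' hc'
  have e1 : dens E side m W * (Fintype.card P : ℝ) ^ Fintype.card V =
      c ^ E.card * ∑ z : V → P, ∏ e ∈ E, W' (z e.1) (z e.2) := by
    have h2 := push (fun v => f (side v)) fun z : V → U => ∏ e ∈ E, W (z e.1) (z e.2)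
    have h3 : ∀ z : V → P, ∏ e ∈ E, W (f (side e.1) (z e.1)) (f (side e.2) (z e.2)) =
        c ^ E.card * ∏ e ∈ E, W' (z e.1) (z e.2) := by
      intro z
      rw [← Finset.prod_const, ← Finset.prod_mul_distrib]
      refine Finset.prod_congr rfl ?_
      intro e he
      rw [(hE e he).1, (hE e he).2]
      exact hWW _ _
    rw [Finset.mul_sum, ← Finset.sum_congr rfl fun z _ => h3 z, h2]
    unfold dens
    rw [Finset.sum_mul]
    refine Finset.sum_congr rfl ?_
    intro z _
    have h4 : ∏ v, m (side v) (z v) = (∏ v, ((univ.filter fun q => f (side v) q = z v).card : ℝ)) /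
        (Fintype.card P : ℝ) ^ Fintype.card V := by
      rw [Finset.prod_congr rfl fun v _ => hmf (side v) (z v), Finset.prod_div_distrib,
        Finset.prod_const, Finset.card_univ]
    rw [h4]
    exact aux2 _ _ _ (pow_pos hP _).ne'
  have hPV : (0 : ℝ) < (Fintype.card P : ℝ) ^ Fintype.card V := pow_pos hP _
  have h5 : (Fintype.card P : ℝ) ^ Fintype.card V ≤
      dens E side m W * (Fintype.card P : ℝ) ^ Fintype.card V := by
    rw [e1]
    have h6 := mul_le_mul_of_nonneg_left hmain (pow_nonneg hc0.le E.card)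
    refine le_trans (le_of_eq ?_) h6
    rw [← mul_assoc, ← mul_pow]
    have : c * ((Fintype.card P : ℝ) / c / Fintype.card P) = 1 := by
      field_simp
    rw [this, one_pow, one_mul]
  by_contra hlt
  push Not at hlt
  have := mul_lt_mul_of_pos_right hlt hPV
  linarith

lemma card_fst {X Y : Type} [Fintype X] [DecidableEq X] (p : X → Prop) [DecidablePred p]
    [Fintype Y] (x : X) :
    ((univ.filter fun q : {x // p x} × Y => (q.1 : X) = x).card : ℝ) =
      if p x then (Fintype.card Y : ℝ) else 0 := by
  split_ifs with hx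
  · have : (univ.filter fun q : {x // p x} × Y => (q.1 : X) = x) =
        (univ.filter fun a : {x // p x} => (a : X) = x) ×ˢ (univ : Finset Y) := by
      ext q
      simp
    rw [this, Finset.card_product, Finset.card_univ]
    have h1 : (univ.filter fun a : {x // p x} => (a : X) = x) = {⟨x, hx⟩} := by
      ext a
      simp [Subtype.ext_iff]
    rw [h1, Finset.card_singleton, one_mul]
  · rw [Nat.cast_eq_zero, Finset.card_eq_zero, Finset.filter_eq_empty_iff]
    rintro ⟨a, y⟩ _ rfl
    exact hx a.2

lemma card_snd {X Y : Type} [Fintype X] [DecidableEq X] (p : X → Prop) [DecidablePred p]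
    [Fintype Y] (x : X) :
    ((univ.filter fun q : Y × {x // p x} => (q.2 : X) = x).card : ℝ) =
      if p x then (Fintype.card Y : ℝ) else 0 := by
  split_ifs with hx
  · have : (univ.filter fun q : Y × {x // p x} => (q.2 : X) = x) =
        (univ : Finset Y) ×ˢ (univ.filter fun a : {x // p x} => (a : X) = x) := by
      ext q
      simp
    rw [this, Finset.card_product, Finset.card_univ]
    have h1 : (univ.filter fun a : {x // p x} => (a : X) = x) = {⟨x, hx⟩} := by
      ext a
      simp [Subtype.ext_iff]
    rw [h1, Finset.card_singleton, mul_one]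
  · rw [Nat.cast_eq_zero, Finset.card_eq_zero, Finset.filter_eq_empty_iff]
    rintro ⟨y, a⟩ _ rfl
    exact hx a.2

open Classical in
/-- Comparison on one orbit of pairs of words. -/
lemma orbit_bound {E : Finset (V × V)} {side : V → Bool}
    (hE : ∀ e ∈ E, side e.1 = false ∧ side e.2 = true)
    (hcard : ∀ b, (univ.filter fun v => side v = b).card ≤ E.card)
    (h : KRegU E side) (m : Bool → U → ℝ) (W : U → U → ℝ) (hm : ∀ b x, 0 ≤ m b x)
    (hm1 : ∀ b, ∑ x, m b x = 1) (hW : ∀ x y, 0 ≤ W x y) {N : ℕ} (x0 y0 : Fin N → U) :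
    (∑ x : Fin N → U, ∑ y : Fin N → U, if Orb x0 y0 x y then
      (∏ i, m false (x i)) * (∏ i, m true (y i)) * ∏ i, W (x i) (y i) else 0) ^ E.card ≤
      dens E side m W ^ N := by
  set al : ℝ := ∏ i, m false (x0 i) with hal
  set be : ℝ := ∏ i, m true (y0 i) with hbe
  set om : ℝ := ∏ i, W (x0 i) (y0 i) with hom
  have hal0 : 0 ≤ al := Finset.prod_nonneg fun i _ => hm _ _
  have hbe0 : 0 ≤ be := Finset.prod_nonneg fun i _ => hm _ _
  have hom0 : 0 ≤ om := Finset.prod_nonneg fun i _ => hW _ _
  set a : ℝ := ((univ.filter fun x => Rea x0 x).card : ℝ) with ha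
  set b : ℝ := ((univ.filter fun y => Rea y0 y).card : ℝ) with hb
  set d1 : ℝ := ((univ.filter fun y => Orb x0 y0 x0 y).card : ℝ) with hd1
  set d2 : ℝ := ((univ.filter fun x => Orb x0 y0 x y0).card : ℝ) with hd2
  have hself : Orb x0 y0 x0 y0 := orb_self x0 y0
  have ha0 : 0 < a := by
    rw [ha]
    exact_mod_cast Finset.card_pos.2 ⟨x0, by simpa using hself.left⟩
  have hb0 : 0 < b := by
    rw [hb]
    exact_mod_cast Finset.card_pos.2 ⟨y0, by simpa using hself.right⟩
  have hd10 : 0 < d1 := by
    rw [hd1]
    exact_mod_cast Finset.card_pos.2 ⟨y0, by simpa using hself⟩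
  have hd20 : 0 < d2 := by
    rw [hd2]
    exact_mod_cast Finset.card_pos.2 ⟨x0, by simpa using hself⟩
  -- row sums and column sums of the orbit relation
  have hrow : ∀ x, (∑ y : Fin N → U, if Orb x0 y0 x y then (1 : ℝ) else 0) =
      if Rea x0 x then d1 else 0 := by
    intro x
    split_ifs with hx
    · rw [Finset.sum_boole, deg_left hx]
    · refine Finset.sum_eq_zero ?_
      intro y _
      rw [if_neg]
      exact fun h' => hx h'.left
  have hcol : ∀ y, (∑ x : Fin N → U, if Orb x0 y0 x y then (1 : ℝ) else 0) =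
      if Rea y0 y then d2 else 0 := by
    intro y
    split_ifs with hy
    · rw [Finset.sum_boole, deg_right hy]
    · refine Finset.sum_eq_zero ?_
      intro x _
      rw [if_neg]
      exact fun h' => hy h'.right
  have hD1 : (∑ x : Fin N → U, ∑ y : Fin N → U, if Orb x0 y0 x y then (1 : ℝ) else 0) =
      a * d1 := by
    rw [Finset.sum_congr rfl fun x _ => hrow x, ← Finset.sum_filter, Finset.sum_const,
      nsmul_eq_mul]
  have hD2 : (∑ x : Fin N → U, ∑ y : Fin N → U, if Orb x0 y0 x y then (1 : ℝ) else 0) =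
      b * d2 := by
    rw [Finset.sum_comm, Finset.sum_congr rfl fun y _ => hcol y, ← Finset.sum_filter,
      Finset.sum_const, nsmul_eq_mul]
  have hdd : a * d1 = b * d2 := by rw [← hD1, ← hD2]
  have hsum : (∑ x : Fin N → U, ∑ y : Fin N → U, if Orb x0 y0 x y then
      (∏ i, m false (x i)) * (∏ i, m true (y i)) * ∏ i, W (x i) (y i) else 0) =
      al * be * om * (a * d1) := by
    rw [← hD1, Finset.mul_sum]
    refine Finset.sum_congr rfl ?_
    intro x _
    rw [Finset.mul_sum]
    refine Finset.sum_congr rfl ?_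
    intro y _
    split_ifs with ho
    · rw [prod_rea _ ho.left, prod_rea _ ho.right, prod_orb _ ho, mul_one]
    · rw [mul_zero]
  -- the regular kernel
  let m2 : Bool → (Fin N → U) → ℝ := fun s x =>
    if s then (if Rea y0 x then 1 / b else 0) else (if Rea x0 x then 1 / a else 0)
  let W2 : (Fin N → U) → (Fin N → U) → ℝ := fun x y =>
    if Rea x0 x ∧ Rea y0 y then (if Orb x0 y0 x y then b / d1 else 0) else 1
  have hm2 : ∀ s x, 0 ≤ m2 s x := by
    intro s x
    simp only [m2]
    split_ifs <;> positivity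
  have hm2s : ∀ s, ∑ x, m2 s x = 1 := by
    intro s
    cases s
    · simp only [m2, Bool.false_eq_true, if_false]
      rw [← Finset.sum_filter, Finset.sum_const, nsmul_eq_mul, ← ha]
      field_simp
    · simp only [m2, if_true]
      rw [← Finset.sum_filter, Finset.sum_const, nsmul_eq_mul, ← hb]
      field_simp
  have hW2 : ∀ x y, 0 ≤ W2 x y := by
    intro x y
    simp only [W2]
    split_ifs <;> positivity
  have hr2 : ∀ x, ∑ y, m2 true y * W2 x y = 1 := by
    intro x
    by_cases hx : Rea x0 x
    · have : ∀ y, m2 true y * W2 x y = (1 / d1) * (if Orb x0 y0 x y then (1 : ℝ) else 0) := by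
        intro y
        simp only [m2, W2, if_true]
        by_cases ho : Orb x0 y0 x y
        · rw [if_pos ho.right, if_pos ⟨hx, ho.right⟩, if_pos ho, if_pos ho]
          field_simp
        · by_cases hy : Rea y0 y
          · rw [if_pos hy, if_pos ⟨hx, hy⟩, if_neg ho, if_neg ho]
            ring
          · rw [if_neg hy, zero_mul, if_neg ho, mul_zero]
      rw [Finset.sum_congr rfl fun y _ => this y, ← Finset.mul_sum, hrow, if_pos hx]
      field_simp
    · have : ∀ y, m2 true y * W2 x y = m2 true y := by
        intro y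
        simp only [W2]
        rw [if_neg (fun h' => hx h'.1), mul_one]
      rw [Finset.sum_congr rfl fun y _ => this y, hm2s]
  have hc2 : ∀ y, ∑ x, m2 false x * W2 x y = 1 := by
    intro y
    by_cases hy : Rea y0 y
    · have : ∀ x, m2 false x * W2 x y = (1 / d2) * (if Orb x0 y0 x y then (1 : ℝ) else 0) := by
        intro x
        simp only [m2, W2, Bool.false_eq_true, if_false]
        by_cases ho : Orb x0 y0 x y
        · rw [if_pos ho.left, if_pos ⟨ho.left, hy⟩, if_pos ho, if_pos ho]
          have h1 : b / d1 = a / d2 := by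
            rw [div_eq_div_iff hd10.ne' hd20.ne']
            linarith
          rw [h1]
          field_simp
        · by_cases hx : Rea x0 x
          · rw [if_pos hx, if_pos ⟨hx, hy⟩, if_neg ho, if_neg ho]
            ring
          · rw [if_neg hx, zero_mul, if_neg ho, mul_zero]
      rw [Finset.sum_congr rfl fun x _ => this x, ← Finset.mul_sum, hcol, if_pos hy]
      field_simp
    · have : ∀ x, m2 false x * W2 x y = m2 false x := by
        intro x
        simp only [W2]
        rw [if_neg (fun h' => hy h'.2), mul_one]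
      rw [Finset.sum_congr rfl fun x _ => this x, hm2s]
  have hreg : 1 ≤ dens E side m2 W2 := by
    have : Nonempty ({x // Rea x0 x} × {y // Rea y0 y}) := ⟨⟨x0, hself.left⟩, ⟨y0, hself.right⟩⟩
    refine h (Fin N → U) m2 W2 hm2 hm2s hW2 hr2 hc2 ({x // Rea x0 x} × {y // Rea y0 y})
      (fun s p => if s then p.2.1 else p.1.1) (b / d1) (div_pos hb0 hd10) ?_ ?_
    · intro s x
      have ca : (Fintype.card {x // Rea x0 x} : ℝ) = a := by
        rw [ha, Fintype.card_subtype]
      have cb : (Fintype.card {y // Rea y0 y} : ℝ) = b := by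
        rw [hb, Fintype.card_subtype]
      rw [Fintype.card_prod, Nat.cast_mul, ca, cb]
      cases s
      · simp only [m2, Bool.false_eq_true, if_false]
        rw [card_fst, cb]
        split_ifs
        · field_simp
        · simp
      · simp only [m2, if_true]
        rw [card_snd, ca]
        split_ifs
        · field_simp
        · simp
    · intro p q
      simp only [W2, Bool.false_eq_true, if_false, if_true]
      rw [if_pos ⟨p.1.2, q.2.2⟩]
      by_cases ho : Orb x0 y0 p.1.1 q.2.1
      · right
        rw [if_pos ho]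
      · left
        rw [if_neg ho]
  -- comparison
  let c : Bool → ℝ := fun s => if s then be * b else al * a
  have hc0 : ∀ s, 0 ≤ c s := by
    intro s
    simp only [c]
    split_ifs
    · exact mul_nonneg hbe0 hb0.le
    · exact mul_nonneg hal0 ha0.le
  have hc1 : ∀ s, c s ≤ 1 := by
    intro s
    cases s
    · simp only [c, Bool.false_eq_true, if_false]
      exact mass_le _ (hm false) (hm1 false) x0
    · simp only [c, if_true]
      exact mass_le _ (hm true) (hm1 true) y0
  have hcm : ∀ s (x : Fin N → U), c s * m2 s x ≤ ∏ i, m s (x i) := by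
    intro s x
    cases s
    · simp only [c, m2, Bool.false_eq_true, if_false]
      split_ifs with hx
      · rw [prod_rea _ hx, ← hal]
        apply le_of_eq
        field_simp
      · rw [mul_zero]
        exact Finset.prod_nonneg fun i _ => hm _ _
    · simp only [c, m2, if_true]
      split_ifs with hx
      · rw [prod_rea _ hx, ← hbe]
        apply le_of_eq
        field_simp
      · rw [mul_zero]
        exact Finset.prod_nonneg fun i _ => hm _ _
  have hka0 : 0 ≤ om * d1 / b := div_nonneg (mul_nonneg hom0 hd10.le) hb0.le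
  have hmain : (∏ v, c (side v)) * (om * d1 / b) ^ E.card * dens E side m2 W2 ≤
      dens E side m W ^ N := by
    rw [← dens_tensor E side m W N]
    unfold dens
    rw [Finset.mul_sum]
    refine Finset.sum_le_sum ?_
    intro z _
    have hR0 : 0 ≤ (∏ v, ∏ i, m (side v) (z v i)) * ∏ e ∈ E, ∏ i, W (z e.1 i) (z e.2 i) :=
      mul_nonneg (Finset.prod_nonneg fun v _ => Finset.prod_nonneg fun i _ => hm _ _)
        (Finset.prod_nonneg fun v _ => Finset.prod_nonneg fun i _ => hW _ _)
    by_cases hz : ∀ v, m2 (side v) (z v) ≠ 0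
    · have e1 : (∏ v, c (side v)) * (om * d1 / b) ^ E.card *
          ((∏ v, m2 (side v) (z v)) * ∏ e ∈ E, W2 (z e.1) (z e.2)) =
          (∏ v, (c (side v) * m2 (side v) (z v))) *
            ∏ e ∈ E, ((om * d1 / b) * W2 (z e.1) (z e.2)) := by
        rw [Finset.prod_mul_distrib, Finset.prod_mul_distrib, Finset.prod_const]
        ring
      rw [e1]
      refine mul_le_mul ?_ ?_ ?_ ?_
      · exact Finset.prod_le_prod (fun v _ => mul_nonneg (hc0 _) (hm2 _ _)) fun v _ => hcm _ _
      · refine Finset.prod_le_prod (fun e _ => mul_nonneg hka0 (hW2 _ _)) ?_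
        intro e he
        obtain ⟨s1, s2⟩ := hE e he
        have z1 := hz e.1
        have z2 := hz e.2
        rw [s1] at z1
        rw [s2] at z2
        simp only [m2, Bool.false_eq_true, if_false, if_true] at z1 z2
        have r1 : Rea x0 (z e.1) := by
          by_contra hn
          rw [if_neg hn] at z1
          exact z1 rfl
        have r2 : Rea y0 (z e.2) := by
          by_contra hn
          rw [if_neg hn] at z2
          exact z2 rfl
        simp only [W2]
        rw [if_pos ⟨r1, r2⟩]
        split_ifs with ho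
        · rw [prod_orb _ ho, ← hom]
          apply le_of_eq
          field_simp
        · rw [mul_zero]
          exact Finset.prod_nonneg fun i _ => hW _ _
      · exact Finset.prod_nonneg fun e _ => mul_nonneg hka0 (hW2 _ _)
      · exact Finset.prod_nonneg fun v _ => Finset.prod_nonneg fun i _ => hm _ _
    · push Not at hz
      obtain ⟨v, hv⟩ := hz
      have e2 : ∏ v, m2 (side v) (z v) = 0 := Finset.prod_eq_zero (mem_univ v) hv
      rw [e2, zero_mul, mul_zero]
      exact hR0
  rw [hsum]
  have hK : (al * be * om * (a * d1)) ^ E.card ≤ (∏ v, c (side v)) * (om * d1 / b) ^ E.card := by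
    have e3 : (al * be * om * (a * d1)) ^ E.card =
        (be * b) ^ E.card * (al * a) ^ E.card * (om * d1 / b) ^ E.card := by
      rw [← mul_pow, ← mul_pow]
      congr 1
      field_simp
    rw [e3, prod_side]
    refine mul_le_mul_of_nonneg_right ?_ (pow_nonneg hka0 _)
    have c1 := hc1 true
    have c2 := hc1 false
    have c3 := hc0 true
    have c4 := hc0 false
    refine mul_le_mul ?_ ?_ (pow_nonneg c4 _) (pow_nonneg c3 _)
    · exact pow_le_pow_of_le_one c3 c1 (hcard true)
    · exact pow_le_pow_of_le_one c4 c2 (hcard false)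
  refine hK.trans (le_trans ?_ hmain)
  have hP0 : 0 ≤ (∏ v, c (side v)) * (om * d1 / b) ^ E.card :=
    mul_nonneg (Finset.prod_nonneg fun v _ => hc0 _) (pow_nonneg hka0 _)
  calc (∏ v, c (side v)) * (om * d1 / b) ^ E.card
      = (∏ v, c (side v)) * (om * d1 / b) ^ E.card * 1 := by ring
    _ ≤ _ := mul_le_mul_of_nonneg_left hreg hP0

end Core

section Final

variable {V U : Type} [Fintype V] [DecidableEq V] [Fintype U]

lemma le_of_pow_le {q t : ℝ} (hq : 0 ≤ q) (ht : 0 ≤ t) (k : ℕ)
    (h : ∀ N : ℕ, q ^ N ≤ ((N : ℝ) + 1) ^ k * t ^ N) : q ≤ t := by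
  by_contra hlt
  push Not at hlt
  have hq0 : 0 < q := lt_of_le_of_lt ht hlt
  set r := t / q with hr
  have hr0 : 0 ≤ r := div_nonneg ht hq
  have hr1 : r < 1 := by
    rw [hr, div_lt_one hq0]
    exact hlt
  have habs : |r| < 1 := by rw [abs_of_nonneg hr0]; exact hr1
  have lim := (tendsto_pow_const_mul_const_pow_of_abs_lt_one k habs).const_mul ((2 : ℝ) ^ k)
  rw [mul_zero] at lim
  have ev := (lim.eventually (gt_mem_nhds (zero_lt_one))).and (Filter.eventually_ge_atTop 1)
  obtain ⟨N, hN, hN1⟩ := ev.exists
  have h1 : 1 ≤ ((N : ℝ) + 1) ^ k * r ^ N := by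
    have := h N
    rw [hr, div_pow, ← mul_div_assoc, le_div_iff₀ (pow_pos hq0 N), one_mul]
    exact this
  have hN1' : (1 : ℝ) ≤ N := by exact_mod_cast hN1
  have h2 : ((N : ℝ) + 1) ^ k ≤ (2 : ℝ) ^ k * (N : ℝ) ^ k := by
    rw [← mul_pow]
    exact pow_le_pow_left₀ (by positivity) (by linarith) k
  have h3 : ((N : ℝ) + 1) ^ k * r ^ N ≤ (2 : ℝ) ^ k * ((N : ℝ) ^ k * r ^ N) := by
    rw [← mul_assoc]
    exact mul_le_mul_of_nonneg_right h2 (pow_nonneg hr0 N)
  linarith

lemma dens_nonneg (E : Finset (V × V)) (side : V → Bool) {m : Bool → U → ℝ} {W : U → U → ℝ}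
    (hm : ∀ b x, 0 ≤ m b x) (hW : ∀ x y, 0 ≤ W x y) : 0 ≤ dens E side m W :=
  Finset.sum_nonneg fun _ _ => mul_nonneg (Finset.prod_nonneg fun _ _ => hm _ _)
    (Finset.prod_nonneg fun _ _ => hW _ _)

open Classical in
lemma power_bound {E : Finset (V × V)} {side : V → Bool}
    (hE : ∀ e ∈ E, side e.1 = false ∧ side e.2 = true)
    (hcard : ∀ b, (univ.filter fun v => side v = b).card ≤ E.card)
    (h : KRegU E side) (m : Bool → U → ℝ) (W : U → U → ℝ) (hm : ∀ b x, 0 ≤ m b x)
    (hm1 : ∀ b, ∑ x, m b x = 1) (hW : ∀ x y, 0 ≤ W x y)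
    (hp : 0 < ∑ x, ∑ y, m false x * m true y * W x y) (N : ℕ) :
    ((∑ x, ∑ y, m false x * m true y * W x y) ^ E.card) ^ N ≤
      ((N : ℝ) + 1) ^ (Fintype.card (U × U) * E.card) * dens E side m W ^ N := by
  set p := ∑ x, ∑ y, m false x * m true y * W x y with hpdef
  let wt : (Fin N → U) × (Fin N → U) → ℝ := fun w =>
    (∏ i, m false (w.1 i)) * (∏ i, m true (w.2 i)) * ∏ i, W (w.1 i) (w.2 i)
  have hwt0 : ∀ w, 0 ≤ wt w := by
    intro w
    exact mul_nonneg (mul_nonneg (Finset.prod_nonneg fun _ _ => hm _ _)
      (Finset.prod_nonneg fun _ _ => hm _ _)) (Finset.prod_nonneg fun _ _ => hW _ _)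
  let J : (Fin N → U) × (Fin N → U) → (U × U → Fin (N + 1)) := fun w q =>
    ⟨(univ.filter fun i => (w.1 i, w.2 i) = q).card, by
      refine Nat.lt_succ_of_le (le_trans (Finset.card_le_univ _) ?_)
      rw [Fintype.card_fin]⟩
  have hpN : ∑ w, wt w = p ^ N := by
    rw [hpdef, ← mean_tensor, Fintype.sum_prod_type]
  set C : ℝ := ((N : ℝ) + 1) ^ Fintype.card (U × U) with hC
  have hC0 : 0 < C := by positivity
  have hcardJ : ((univ : Finset (U × U → Fin (N + 1))).card : ℝ) = C := by
    rw [Finset.card_univ, Fintype.card_fun, Fintype.card_fin, hC]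
    push_cast
    rfl
  have hfib : ∑ tau : U × U → Fin (N + 1), (p ^ N / C) ≤
      ∑ tau : U × U → Fin (N + 1), ∑ w ∈ univ.filter (fun w => J w = tau), wt w := by
    rw [Finset.sum_fiberwise, hpN, Finset.sum_const, nsmul_eq_mul, hcardJ]
    apply le_of_eq
    field_simp
  obtain ⟨tau, -, htau⟩ := Finset.exists_le_of_sum_le (Finset.univ_nonempty) hfib
  have hpC : 0 < p ^ N / C := div_pos (pow_pos hp N) hC0
  have hne : (univ.filter (fun w => J w = tau)).Nonempty := by
    by_contra hne
    rw [Finset.not_nonempty_iff_eq_empty] at hne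
    rw [hne, Finset.sum_empty] at htau
    linarith
  obtain ⟨w0, hw0⟩ := hne
  have hJ0 : J w0 = tau := (mem_filter.1 hw0).2
  have horb := orbit_bound hE hcard h m W hm hm1 hW w0.1 w0.2
  have hle : ∑ w ∈ univ.filter (fun w => J w = tau), wt w ≤
      ∑ x : Fin N → U, ∑ y : Fin N → U, if Orb w0.1 w0.2 x y then
        (∏ i, m false (x i)) * (∏ i, m true (y i)) * ∏ i, W (x i) (y i) else 0 := by
    have : (∑ x : Fin N → U, ∑ y : Fin N → U, if Orb w0.1 w0.2 x y then
        (∏ i, m false (x i)) * (∏ i, m true (y i)) * ∏ i, W (x i) (y i) else 0) =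
        ∑ w : (Fin N → U) × (Fin N → U), if Orb w0.1 w0.2 w.1 w.2 then wt w else 0 := by
      rw [Fintype.sum_prod_type]
    rw [this, ← Finset.sum_filter]
    refine Finset.sum_le_sum_of_subset_of_nonneg ?_ fun w _ _ => hwt0 w
    intro w hw
    simp only [mem_filter, mem_univ, true_and] at hw ⊢
    refine orb_of_count ?_
    intro q
    have := congrFun (hw.trans hJ0.symm) q
    exact congrArg Fin.val this
  have h1 : (p ^ N / C) ^ E.card ≤ dens E side m W ^ N :=
    le_trans (pow_le_pow_left₀ hpC.le (htau.trans hle) _) horb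
  rw [div_pow, div_le_iff₀ (pow_pos hC0 _)] at h1
  calc (p ^ E.card) ^ N = (p ^ N) ^ E.card := by rw [← pow_mul, ← pow_mul, mul_comm]
    _ ≤ dens E side m W ^ N * C ^ E.card := h1
    _ = _ := by rw [hC, ← pow_mul, mul_comm]

theorem ksid_of_kregu {E : Finset (V × V)} {side : V → Bool}
    (hE : ∀ e ∈ E, side e.1 = false ∧ side e.2 = true)
    (hcard : ∀ b, (univ.filter fun v => side v = b).card ≤ E.card)
    (h : KRegU E side) : Vale.Agent.P050.Lev.KSid E side := by
  refine ⟨hE, ?_⟩
  intro U _ m W hm hm1 hW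
  have ht := dens_nonneg E side hm hW
  have hp0 : 0 ≤ ∑ x, ∑ y, m false x * m true y * W x y :=
    Finset.sum_nonneg fun _ _ => Finset.sum_nonneg fun _ _ =>
      mul_nonneg (mul_nonneg (hm _ _) (hm _ _)) (hW _ _)
  rcases hp0.eq_or_lt with hp | hp
  · rw [← hp]
    rcases Nat.eq_zero_or_pos E.card with he | he
    · have hE0 : E = ∅ := Finset.card_eq_zero.1 he
      subst hE0
      classical
      rw [Finset.card_empty, pow_zero]
      simp only [Finset.prod_empty, mul_one]
      have := Finset.prod_univ_sum (fun _ : V => (univ : Finset U)) fun v x => m (side v) x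
      rw [Fintype.piFinset_univ] at this
      rw [← this]
      simp [hm1]
    · rw [zero_pow he.ne']
      exact ht
  · exact le_of_pow_le (pow_nonneg hp0 _) ht _
      fun N => power_bound hE hcard h m W hm hm1 hW hp N

/-- **Reduction to the regular case.** If no side of `E` has more vertices than `E` has edges
(for instance, if there are no isolated vertices), then the Sidorenko inequality for kernels with
constant row and column means implies the two-sided Sidorenko inequality for all kernels. -/
theorem ksid_of_kreg {E : Finset (V × V)} {side : V → Bool}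
    (hE : ∀ e ∈ E, side e.1 = false ∧ side e.2 = true)
    (hcard : ∀ b, (univ.filter fun v => side v = b).card ≤ E.card)
    (h : KReg E side) : Vale.Agent.P050.Lev.KSid E side :=
  ksid_of_kregu hE hcard fun U _ _ m W hm hm1 hW hr hc _ _ _ _ _ _ _ _ =>
    h U m W hm hm1 hW hr hc

/-- **Reduction to `0/1` valued kernels on a square with constant row and column sums.** -/
theorem ksid_of_kuni {E : Finset (V × V)} {side : V → Bool}
    (hE : ∀ e ∈ E, side e.1 = false ∧ side e.2 = true)
    (hcard : ∀ b, (univ.filter fun v => side v = b).card ≤ E.card)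
    (h : KUni E) : Vale.Agent.P050.Lev.KSid E side :=
  ksid_of_kregu hE hcard (kregu_of_kuni hE h)

/-- The cardinality condition holds if every vertex lies on an edge. -/
lemma card_side_le {E : Finset (V × V)} {side : V → Bool}
    (hE : ∀ e ∈ E, side e.1 = false ∧ side e.2 = true)
    (hinc : ∀ v, ∃ e ∈ E, e.1 = v ∨ e.2 = v) (b : Bool) :
    (univ.filter fun v => side v = b).card ≤ E.card := by
  classical
  have hsub : (univ.filter fun v => side v = b) ⊆
      E.image (fun e => if b then e.2 else e.1) := by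
    intro v hv
    have hb := (mem_filter.1 hv).2
    obtain ⟨e, he, hev⟩ := hinc v
    obtain ⟨s1, s2⟩ := hE e he
    refine mem_image.2 ⟨e, he, ?_⟩
    rcases hev with hev | hev
    · subst hev
      rw [s1] at hb
      subst hb
      simp
    · subst hev
      rw [s2] at hb
      subst hb
      simp
  exact (Finset.card_le_card hsub).trans Finset.card_image_le

end Final

end Vale.Agent.P050.H987
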